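import Vale.Agent.P352Y.WL.Gro
import Vale.Agent.P352Z.P352X.Api1C
import Vale.Agent.P352Z.P352X.R.TWO.Mu

open Vale.Agent.P352G

/-!
# P352Y, weight lemma: homogeneous distributions and their growth under the boosts
-/

noncomputable section

open MeasureTheory Filter Topology Complex Set
open scoped Real SchwartzMap ENNReal

namespace Vale.Agent.P352Y.Wl

open Vale.Agent.P352 Vale.Agent.P352.GF Vale.Agent.P352.BW Vale.Agent.P352X Two
open UniformSpace (Completion)

variable {D : Type*} [NormedAddCommGroup D] [InnerProductSpace ℂ D] [GrD D] {c : CtxZ D} {d : ℕ}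
  {om : Sch →L[ℂ] Completion D}

/-- translation covariant distributions of dimension `d`, orthogonal to the vacuum -/
structure HomZ (c : CtxZ D) (d : ℝ) (om : Sch →L[ℂ] Completion D) : Prop where
  tr : ∀ y f, om (ST.tsl y f) = Ut c.Q y (om f)
  sc : ∀ s (f g : Sch), 0 < s → (∀ x, g x = f (s • x)) →
    om f = ((s ^ (4 - d) : ℝ) : ℂ) • Ug c.Q s GF.one 0 (om g)
  perp : ∀ f, inner ℂ c.Om (om f) = 0

lemma HomZ.rel {d : ℝ} (h : HomZ c d om) (f g : Sch) :
    c.bt.Phi (ft (ev g)) (om f) = c.bt.Phi (ft (ev f)) (om g) :=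
  rel_clmZ om (fun y _ => h.tr y f) fun y _ => h.tr y g

lemma HomZ.hom (h : HomZ c d om) {A : Set V} (hA : MeasurableSet A) {s : ℝ} (hs : 0 < s) :
    rhoZ c (om gS) ((fun p => s⁻¹ • p) ⁻¹' A) = ENNReal.ofReal (s ^ (2 * d)) * rhoZ c (om gS) A := by
  have i := inv_pos.2 hs
  have e := h.sc s⁻¹ gS (pb (conf_smul i.ne') gS) i fun _ => rfl
  have := rho_mapZ ((grp_rowZ c).uni s⁻¹ GF.one 0) (conf_smul i.ne') (t := (s⁻¹ ^ (4 - d : ℝ))⁻¹)
    (by positivity) (measurable_const_smul s⁻¹) (measurable_const_smul s)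
    (fun y => sim_dil s⁻¹ y ▸ ug_utZ i H496.isLor_one y) (fun p y => by rw [H755.md_smul, H755.md_smul_l])
    (fun p => inv_smul_smul₀ hs.ne' p) (fun p => smul_inv_smul₀ hs.ne' p)
    (h.rel (pb (conf_smul i.ne') gS) gS) (v' := om gS) (by
      rw [ofReal_inv, eq_inv_smul_iff₀ (ofReal_ne_zero.2 (by positivity)), ← e])
  rw [← Measure.map_apply (measurable_const_smul _) hA, this, Measure.smul_apply, smul_eq_mul,
    Real.rpow_sub i, show (4 : ℝ) = (4 : ℕ) by norm_num, Real.rpow_natCast, Real.rpow_natCast]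
  congr 2
  field_simp
  rw [one_div, inv_pow, pow_mul', ← mul_pow, inv_mul_cancel₀ (by positivity), one_pow]

/-- **growth under the boosts** -/
theorem HomZ.gr (h : HomZ c d om) (f : Sch) : Gr d fun t => Bo c.Q t (om (bS t f)) := by
  have g := grp_rowZ c
  refine ⟨g.sc_cont (fun t => ⟨Real.exp_pos _, Real.exp_pos _⟩) (by fun_prop) (by fun_prop)
    (om.continuous.comp (cont_bS f)), ?_⟩
  obtain ⟨m, C, C0, hC⟩ := ft_decay (d + 1)
  set ρ := rhoZ c (om gS)
  have fin : ∀ ε, ρ (bx ε) ≠ ∞ := fun ε => (rho_finZ _ univ _ (cpt_bx ε) (subset_univ _)).ne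
  have l := tendsto_measure_biInter_gt (μ := ρ) (s := bx) (a := 0)
    (fun r _ => (closed_bx r).measurableSet.nullMeasurableSet)
    (fun i j _ k u hu => ⟨hu.1, hu.2.1, hu.2.2.trans k⟩) ⟨1, one_pos, fin 1⟩
  rw [measure_mono_null (μ := ρ) (t := {p | tx p = 0}) (fun u hu => norm_le_zero_iff.1
    (le_of_forall_pos_le_add fun ε hε => by simpa using (mem_iInter₂.1 hu ε hε).2.2))
    (withDensity_absolutelyContinuous _ _ ((bas_thmZ c).ker _ (h.perp _)).2.2.1)] at l
  have l1 : Tendsto (fun t : ℝ => 2 * rexp (-|t|)) (cocompact ℝ) (𝓝[>] 0) :=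
    tendsto_nhdsWithin_iff.2 ⟨((Real.tendsto_exp_neg_atTop_nhds_zero.comp
      (tendsto_norm_cocompact_atTop (E := ℝ))).const_mul 2).trans_eq (by rw [mul_zero]),
      .of_forall fun t => mul_pos two_pos (Real.exp_pos _)⟩
  have l2 := ((((ENNReal.tendsto_toReal ENNReal.zero_ne_top).comp (l.comp l1)).const_mul
    ((C * P352X.sn m f) ^ 2)).mul_const 2).sqrt
  simp only [ENNReal.toReal_zero, mul_zero, zero_mul, Real.sqrt_zero] at l2
  refine squeeze_zero (fun t => by positivity) (fun t => Real.le_sqrt_of_sq_le ?_) l2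
  have k := dyadic (closed_bx (2 * rexp (-|t|))).measurableSet
    (fun s hs => h.hom (closed_bx _).measurableSet hs) (F := sq2 (ft (ev (bS t f))))
    (sq_nonneg (C * P352X.sn m f)) (Real.exp_pos |t|) fun p => by
      set q := scp (rexp t) (rexp (-t)) p
      obtain ⟨k, k1, k2⟩ := exists_nat_pow_near (le_add_of_nonneg_right (norm_nonneg q))
        (one_lt_two (α := ℝ))
      refine ⟨k, mem_bx (by positivity) (by linarith [pow_succ' (2 : ℝ) k]),
        ENNReal.ofReal_le_ofReal ?_⟩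
      rw [ft_bS, le_div_iff₀' (by positivity)]
      refine le_trans ?_ (pow_le_pow_left₀ (by positivity) (hC f q) 2)
      rw [mul_pow, ← pow_mul (1 + ‖q‖)]
      exact mul_le_mul_of_nonneg_right ((pow_le_pow_right₀ (one_le_pow₀ one_le_two)
        (show 2 * d + 1 ≤ (d + 1) * 2 by omega)).trans (pow_le_pow_left₀ (by positivity) k1 _))
        (sq_nonneg _)
  rw [← setLIntegral_univ, ← withDensity_apply _ .univ,
    ← nu_eqZ (bd_ft ⟨_, rfl⟩) (h.rel (bS t f) gS)] at k
  have k' := ENNReal.toReal_mono (ENNReal.mul_ne_top (ENNReal.mul_ne_top ENNReal.ofReal_ne_top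
    (fin _)) ENNReal.ofNat_ne_top) k
  rw [ENNReal.toReal_mul, ENNReal.toReal_mul, ENNReal.toReal_ofReal (by positivity),
    ENNReal.toReal_ofNat, ← measureReal_def, c.bt.nu_univ] at k'
  rw [mul_pow, Bo, Usc, g.ug_norm, Real.exp_neg, inv_pow, inv_mul_le_iff₀ (by positivity),
    Real.exp_nat_mul, ← pow_mul, mul_comm d]
  exact k'.trans_eq (by simp only [Function.comp_apply]; ring)

end Vale.Agent.P352Y.Wl

end
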